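import Crest.Agent.N49.La.Cost

/-!
# Row 49 (helper52): the semantic level-one cost, the Gaussian mass of the kernel of a homomorphism
-/

set_option autoImplicit false

open Finset Matrix

noncomputable section

namespace Crest.Agent.N49.Sp

open Po La

variable {d e σ ρ : Type} [Fintype d] [Fintype e] [Fintype σ] [Fintype ρ] [DecidableEq d]
  [DecidableEq e] [DecidableEq σ] [DecidableEq ρ] {M M' : Matrix d d ℝ}

/-- unnormalised Gaussian mass of a set of lattice points -/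
def ks (M : Matrix d d ℝ) (θ : d → ℝ) (S : Set (d → ℤ)) : ℝ :=
  ∑' n, S.indicator (fun n => gs M (zc n - θ)) n

/-- the centred Gaussian probability of a set of lattice points -/
def gk (M : Matrix d d ℝ) (S : Set (d → ℤ)) : ℝ := ks M 0 S / th M 0

omit [DecidableEq d] in
theorem ind_nonneg (M : Matrix d d ℝ) (θ : d → ℝ) (S : Set (d → ℤ)) (n : d → ℤ) :
    0 ≤ S.indicator (fun n => gs M (zc n - θ)) n :=
  Set.indicator_nonneg (fun _ _ => (gs_pos _ _).le) n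

omit [DecidableEq d] in
theorem ks_nonneg (M : Matrix d d ℝ) (θ : d → ℝ) (S : Set (d → ℤ)) : 0 ≤ ks M θ S :=
  tsum_nonneg (ind_nonneg M θ S)

theorem summable_ks (hM : M.PosDef) (θ : d → ℝ) (S : Set (d → ℤ)) :
    Summable fun n => S.indicator (fun n => gs M (zc n - θ)) n := (summable_gs hM θ).indicator S

omit [DecidableEq d] in
theorem ks_univ (M : Matrix d d ℝ) (θ : d → ℝ) : ks M θ Set.univ = th M θ := by simp [ks, th]

theorem ks_mono_set (hM : M.PosDef) (θ : d → ℝ) {S T : Set (d → ℤ)} (h : S ⊆ T) :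
    ks M θ S ≤ ks M θ T :=
  (summable_ks hM θ S).tsum_le_tsum (fun n => Set.indicator_le_indicator_of_subset h
    (fun _ => (gs_pos _ _).le) n) (summable_ks hM θ T)

theorem ks_le_th (hM : M.PosDef) (θ : d → ℝ) (S : Set (d → ℤ)) : ks M θ S ≤ th M θ :=
  (ks_mono_set hM θ (Set.subset_univ S)).trans_eq (ks_univ M θ)

theorem ks_mono (hM : M.PosDef) (hM' : M'.PosDef) (h : ∀ x, qf M x ≤ qf M' x) (θ : d → ℝ)
    (S : Set (d → ℤ)) : ks M' θ S ≤ ks M θ S :=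
  (summable_ks hM' θ S).tsum_le_tsum (fun _ => Set.indicator_le_indicator
    (Real.exp_le_exp.2 (neg_le_neg (mul_le_mul_of_nonneg_left (h _) Real.pi_pos.le))))
    (summable_ks hM θ S)

omit [DecidableEq d] in
theorem gk_nonneg (M : Matrix d d ℝ) (S : Set (d → ℤ)) : 0 ≤ gk M S :=
  div_nonneg (ks_nonneg _ _ _) (th_nonneg _ _)

theorem gk_le_one (hM : M.PosDef) (S : Set (d → ℤ)) : gk M S ≤ 1 :=
  (div_le_one (th_pos hM 0)).2 (ks_le_th hM 0 S)

theorem gk_eq (hM : M.PosDef) (S : Set (d → ℤ)) : gk M S = (gm M 0).real S := by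
  rw [gm_real hM, gk, ks, ← tsum_div_const]
  refine tsum_congr fun n => ?_
  by_cases h : n ∈ S <;> simp [h]

theorem ks_eq (hM : M.PosDef) (S : Set (d → ℤ)) : ks M 0 S = gk M S * th M 0 :=
  (div_mul_cancel₀ _ (th_pos hM 0).ne').symm

theorem gk_mono_set (hM : M.PosDef) {S T : Set (d → ℤ)} (h : S ⊆ T) : gk M S ≤ gk M T :=
  div_le_div_of_nonneg_right (ks_mono_set hM 0 h) (th_nonneg _ _)

omit [DecidableEq d] [DecidableEq σ] in
/-- sums over the image of an injective map -/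
theorem ks_range (M : Matrix d d ℝ) (θ : d → ℝ) {α : Type} {f : α → d → ℤ}
    (hf : Function.Injective f) (S : Set (d → ℤ)) :
    ks M θ (S ∩ Set.range f) = ∑' u, (f ⁻¹' S).indicator (fun u => gs M (zc (f u) - θ)) u := by
  rw [ks, ← hf.tsum_eq (f := fun n => (S ∩ Set.range f).indicator (fun n => gs M (zc n - θ)) n)
    fun n hn => (Set.support_indicator_subset hn).2]
  refine tsum_congr fun u => ?_
  by_cases h : f u ∈ S <;> simp [h]

omit [DecidableEq d] in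
/-- every subgroup of the lattice is the image of an injective integer matrix -/
theorem exists_mat (K : AddSubgroup (d → ℤ)) : ∃ (s : ℕ) (B : Matrix d (Fin s) ℤ),
    Function.Injective (rm B).mulVec ∧ Set.range B.mulVec = K := by
  classical
  obtain ⟨s, b⟩ := Submodule.basisOfPid (Pi.basisFun ℤ d) K.toIntSubmodule
  have h1 : LinearIndependent ℤ fun j => (b j : d → ℤ) :=
    b.linearIndependent.map' K.toIntSubmodule.subtype (Submodule.ker_subtype _)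
  refine ⟨s, Matrix.of fun i j => (b j : d → ℤ) i, ?_, ?_⟩
  · rw [mulVec_injective_iff]
    exact (linearIndependent_algebraMap_comp_iff (S := ℝ)).2 h1
  · have e1 : ∀ u : Fin s → ℤ, (Matrix.of fun i j => (b j : d → ℤ) i) *ᵥ u =
        ((∑ j, u j • b j : K.toIntSubmodule) : d → ℤ) := fun u => by
      funext i; simp [mulVec, dotProduct, mul_comm]
    ext n
    constructor
    · rintro ⟨u, rfl⟩
      rw [e1]; exact (∑ j, u j • b j : K.toIntSubmodule).2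
    · intro hn
      exact ⟨b.repr ⟨n, hn⟩, by rw [e1, b.sum_repr]⟩

omit [DecidableEq d] [DecidableEq σ] in
theorem ks_mat (M : Matrix d d ℝ) (θ : d → ℝ) {B : Matrix d σ ℤ}
    (hB : Function.Injective B.mulVec) :
    ks M θ (Set.range B.mulVec) = ∑' u : σ → ℤ, gs M (rm B *ᵥ zc u - θ) := by
  rw [← Set.univ_inter (Set.range _), ks_range M θ hB]
  simp [zc_mulVec]

theorem tsum_mat_le (hM : M.PosDef) (θ : d → ℝ) {B : Matrix d σ ℝ}
    (hB : Function.Injective B.mulVec) :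
    ∑' u : σ → ℤ, gs M (B *ᵥ zc u - θ) ≤ th (Bᵀ * M * B) 0 := by
  rw [tsum_sub_lattice hM hB]
  exact (mul_le_of_le_one_left (th_nonneg _ _) (gs_le_one hM _)).trans (th_le (posDef_conj hM hB) _)

omit [DecidableEq d] [DecidableEq σ] in
theorem th_conj (M : Matrix d d ℝ) (B : Matrix d σ ℝ) :
    th (Bᵀ * M * B) 0 = ∑' u : σ → ℤ, gs M (B *ᵥ zc u - 0) := by
  simp only [th, gs, sub_zero, qf_conj]

/-- **a subgroup carries the largest mass for the centre zero** -/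
theorem ks_sub_le (hM : M.PosDef) (θ : d → ℝ) (K : AddSubgroup (d → ℤ)) :
    ks M θ K ≤ ks M 0 K := by
  obtain ⟨s, B, h1, h2⟩ := exists_mat K
  rw [← h2, ks_mat M θ (inj_of_rm h1), ks_mat M 0 (inj_of_rm h1), ← th_conj]
  exact tsum_mat_le hM θ h1

omit [DecidableEq d] in
theorem ks_shift (M : Matrix d d ℝ) (θ : d → ℝ) (S : Set (d → ℤ)) (a : d → ℤ) :
    ks M θ S = ks M (θ - zc a) {n | n + a ∈ S} := by
  rw [ks, ks, ← (Equiv.addRight a).tsum_eq]
  refine tsum_congr fun n => ?_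
  by_cases h : n + a ∈ S
  · simp [h, zc_add, sub_sub_eq_add_sub]
  · simp [h]

/-- **cosets**: a fibre of a homomorphism, any centre -/
theorem ks_coset {H : Type*} [AddCommGroup H] (hM : M.PosDef) (θ : d → ℝ) (π : (d → ℤ) →+ H)
    (c : H) : ks M θ {n | π n = c} ≤ ks M 0 {n | π n = 0} := by
  by_cases h : ∃ a, π a = c
  · obtain ⟨a, rfl⟩ := h
    rw [ks_shift M θ _ a, show {n | n + a ∈ {n | π n = π a}} = (π.ker : Set (d → ℤ)) by
      ext n; simp]
    exact ks_sub_le hM _ π.ker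
  · rw [show {n | π n = c} = ∅ from Set.eq_empty_of_forall_notMem fun n hn => h ⟨n, hn⟩]
    simpa [ks] using ks_nonneg M 0 _

theorem ks_coset' {H : Type*} [AddCommGroup H] (hM : M.PosDef) (θ : d → ℝ) (π : (d → ℤ) →+ H)
    (c : H) : ks M θ {n | π n = c} ≤ gk M {n | π n = 0} * th M 0 :=
  (ks_coset hM θ π c).trans_eq (ks_eq hM _)

/-- the general comparison -/
theorem gk_le_of {N : Matrix σ σ ℝ} (hM : M.PosDef) (hN : N.PosDef) {S : Set (d → ℤ)}
    {T : Set (σ → ℤ)} {a b : ℝ} (h1 : ks N 0 T ≤ a * ks M 0 S)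
    (h2 : a * th M 0 ≤ b * th N 0) : gk N T ≤ b * gk M S := by
  rw [gk, div_le_iff₀ (th_pos hN 0), mul_right_comm]
  refine h1.trans ?_
  rw [ks_eq hM, mul_left_comm, mul_comm]
  exact mul_le_mul_of_nonneg_right h2 (gk_nonneg _ _)

/-- **shrinking** -/
theorem gk_mono (hM : M.PosDef) (hM' : M'.PosDef) {t : ℝ} (ht : 1 ≤ t)
    (h : ∀ x, qf M x ≤ qf M' x) (h' : ∀ x, qf M' x ≤ t * qf M x) (S : Set (d → ℤ)) :
    gk M' S ≤ √t ^ Fintype.card d * gk M S := by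
  have h0 := one_pos.trans_le ht
  refine gk_le_of (a := 1) hM hM' (by simpa using ks_mono hM hM' h 0 S) ?_
  have a := th_scale hM' (inv_pos.2 h0) (inv_le_one_of_one_le₀ ht) 0
  rw [Real.sqrt_inv, inv_inv] at a
  rw [one_mul]
  refine (th_mono (hM'.smul (inv_pos.2 h0)) hM (fun x => ?_) 0).trans a
  rw [qf_smul, inv_mul_le_iff₀ h0]
  exact h' x

/-- two-sided version -/
theorem gk_cmp (hM : M.PosDef) (hM' : M'.PosDef) {s t : ℝ} (hs : 0 < s) (ht : s ≤ t)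
    (h : ∀ x, s * qf M x ≤ qf M' x) (h' : ∀ x, qf M' x ≤ t * qf M x) (S : Set (d → ℤ)) :
    gk M' S ≤ √(t / s) ^ Fintype.card d * gk (s • M) S :=
  gk_mono (hM.smul hs) hM' ((one_le_div hs).2 ht) (fun x => by rw [qf_smul]; exact h x)
    (fun x => by rw [qf_smul, ← mul_assoc, div_mul_cancel₀ _ hs.ne']; exact h' x) S

theorem gk_smul (hM : M.PosDef) {t : ℝ} (ht : 1 ≤ t) (S : Set (d → ℤ)) :
    gk (t • M) S ≤ √t ^ Fintype.card d * gk M S :=
  gk_mono hM (hM.smul (one_pos.trans_le ht)) ht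
    (fun x => by rw [qf_smul]; exact le_mul_of_one_le_left (qf_nonneg hM x) ht)
    (fun x => (qf_smul t M x).le) S

omit [DecidableEq σ] in
theorem ks_conj (hM : M.PosDef) {B : Matrix d σ ℤ} (hB : Function.Injective B.mulVec)
    (S : Set (d → ℤ)) : ks ((rm B)ᵀ * M * rm B) 0 (B.mulVec ⁻¹' S) ≤ ks M 0 S := by
  refine le_trans (le_of_eq ?_) (ks_mono_set hM 0 (Set.inter_subset_left (t := Set.range B.mulVec)))
  rw [ks_range M 0 hB, ks]
  simp only [gs, sub_zero, qf_conj, zc_mulVec]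

/-- **sublattices** -/
theorem gk_sub (hM : M.PosDef) {B : Matrix d σ ℤ} (hB : Function.Injective (rm B).mulVec) {b : ℝ}
    (h : th M 0 ≤ b * th ((rm B)ᵀ * M * rm B) 0) (S : Set (d → ℤ)) :
    gk ((rm B)ᵀ * M * rm B) (B.mulVec ⁻¹' S) ≤ b * gk M S :=
  gk_le_of (a := 1) hM (posDef_conj hM hB) (by simpa using ks_conj hM (inj_of_rm hB) S)
    (by simpa using h)

/-- the mass of a fibre of `K` -/
theorem Spl_fib {B : Matrix d σ ℤ} {P : Matrix σ d ℤ} {C : Matrix d ρ ℤ} {K : Matrix ρ d ℤ}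
    (h : Spl B P C K) (hM : M.PosDef) (c : ρ → ℤ) :
    ∑' u : σ → ℤ, gs M (zc (B *ᵥ u + C *ᵥ c) - 0) ≤
      gs (rm K * M⁻¹ * (rm K)ᵀ)⁻¹ (zc c - 0) * th ((rm B)ᵀ * M * rm B) 0 := by
  have g := h.rm
  have hG : (rm K * M⁻¹ * (rm K)ᵀ).PosDef := by
    have : Function.Injective (rm K)ᵀ.mulVec := fun u v e => by
      have := congrArg (rm C)ᵀ.mulVec e
      rwa [mulVec_mulVec, mulVec_mulVec, ← transpose_mul, g.kc, transpose_one, one_mulVec,
        one_mulVec] at this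
    simpa using posDef_conj hM.inv this
  have e1 : ∀ u : σ → ℤ, zc (B *ᵥ u + C *ᵥ c) - 0 = rm B *ᵥ zc u - -(rm C *ᵥ zc c) := fun u => by
    rw [zc_add, zc_mulVec, zc_mulVec, sub_zero, sub_neg_eq_add]
  simp only [e1]
  rw [tsum_sub_lattice hM g.inj]
  refine mul_le_mul (Real.exp_le_exp.2 (neg_le_neg (mul_le_mul_of_nonneg_left ?_ Real.pi_pos.le)))
    (th_le (posDef_conj hM g.inj) _) (th_nonneg _ _) (gs_pos _ _).le
  obtain ⟨y, hy⟩ : ∃ y, y = rm B *ᵥ (((rm B)ᵀ * M * rm B)⁻¹ *ᵥ ((rm B)ᵀ *ᵥ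
    (M *ᵥ -(rm C *ᵥ zc c)))) - -(rm C *ᵥ zc c) := ⟨_, rfl⟩
  have e2 : rm K *ᵥ y = zc c := by
    rw [hy, mulVec_sub, mulVec_mulVec _ (rm K), g.kb, zero_mulVec, mulVec_neg, mulVec_mulVec, g.kc,
      one_mulVec, zero_sub, neg_neg]
  rw [← hy, sub_zero]
  obtain ⟨w, hw⟩ : ∃ w, w = (rm K * M⁻¹ * (rm K)ᵀ)⁻¹ *ᵥ zc c := ⟨_, rfl⟩
  have e3 : qf (rm K * M⁻¹ * (rm K)ᵀ)⁻¹ (zc c) = ((rm K)ᵀ *ᵥ w) ⬝ᵥ y := by
    rw [qf, ← hw, mulVec_transpose, ← dotProduct_mulVec, e2, dotProduct_comm]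
  have e4 : qf M⁻¹ ((rm K)ᵀ *ᵥ w) = qf (rm K * M⁻¹ * (rm K)ᵀ)⁻¹ (zc c) := by
    have := qf_conj M⁻¹ (rm K)ᵀ w
    rw [transpose_transpose] at this
    rw [← this, qf, qf, hw, mulVec_mulVec, mul_nonsing_inv _ hG.det_pos.ne'.isUnit, one_mulVec,
      dotProduct_comm]
  have a := dual_sq_le hM y ((rm K)ᵀ *ᵥ w)
  rw [← e3, e4] at a
  rcases (qf_nonneg hG.inv (zc c)).eq_or_lt with z | z
  · rw [← z]; exact qf_nonneg hM y
  · exact le_of_mul_le_mul_left (by rw [← sq]; exact a) z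

theorem Spl_posDef {B : Matrix d σ ℤ} {P : Matrix σ d ℤ} {C : Matrix d ρ ℤ} {K : Matrix ρ d ℤ}
    (h : Spl B P C K) (hM : M.PosDef) : (rm K * M⁻¹ * (rm K)ᵀ).PosDef := by
  have : Function.Injective (rm K)ᵀ.mulVec := fun u v e => by
    have := congrArg (rm C)ᵀ.mulVec e
    rwa [mulVec_mulVec, mulVec_mulVec, ← transpose_mul, h.rm.kc, transpose_one, one_mulVec,
      one_mulVec] at this
  simpa using posDef_conj hM.inv this

theorem Spl_th {B : Matrix d σ ℤ} {P : Matrix σ d ℤ} {C : Matrix d ρ ℤ} {K : Matrix ρ d ℤ}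
    (h : Spl B P C K) (hM : M.PosDef) :
    th M 0 ≤ ct (rm K * M⁻¹ * (rm K)ᵀ) * th ((rm B)ᵀ * M * rm B) 0 := by
  rw [ct, th, th, ← tsum_mul_right]
  exact hasSum_le (fun c => Spl_fib h hM c) (h.tsum (summable_gs hM 0)).2
    ((summable_gs (Spl_posDef h hM).inv 0).mul_right _).hasSum

/-- **slices** -/
theorem gk_slice {B : Matrix d σ ℤ} {P : Matrix σ d ℤ} {C : Matrix d ρ ℤ} {K : Matrix ρ d ℤ}
    (h : Spl B P C K) (hM : M.PosDef) (S : Set (d → ℤ)) :
    gk ((rm B)ᵀ * M * rm B) (B.mulVec ⁻¹' S) ≤ ct (rm K * M⁻¹ * (rm K)ᵀ) * gk M S :=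
  gk_sub hM h.rm.inj (Spl_th h hM) S

end Crest.Agent.N49.Sp
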