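import Crest.Agent.N49.Sp.Sp
import Crest.Agent.N49.Rw.Sch

/-!
# Row 49 (helper52): the semantic level-one cost, second part
-/

set_option autoImplicit false

open Finset Matrix

noncomputable section

namespace Crest.Agent.N49.Sp

open Po La Rw

variable {d e σ ρ : Type} [Fintype d] [Fintype e] [Fintype σ] [Fintype ρ] [DecidableEq d]
  [DecidableEq e] [DecidableEq σ] [DecidableEq ρ] {M M' : Matrix d d ℝ} {W : Matrix e e ℝ}

theorem th_unit : th (1 : Matrix Unit Unit ℝ) 0 ≤ 2 := by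
  have h := th_short (d := Unit) (M := 1) PosDef.one (R := 1) fun n hn => by
    have : n () ≠ 0 := fun z => hn (funext fun _ => z)
    have h2 : (1 : ℝ) ≤ (n () : ℝ) ^ 2 := by
      exact_mod_cast (one_le_sq_iff_one_le_abs _).2 (Int.one_le_abs this)
    simpa [qf, zc, dotProduct, sq] using h2
  have a := Real.quadratic_le_exp_of_nonneg (x := Real.pi * 1 / 2) (by positivity)
  have b : √2 ≤ 3 / 2 := Real.sqrt_le_iff.2 ⟨by norm_num, by norm_num⟩
  have c : bz Unit 1 ≤ 1 / 2 := by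
    rw [bz, Fintype.card_unit, pow_one, Real.exp_neg, ← div_eq_mul_inv,
      div_le_iff₀ (Real.exp_pos _)]
    nlinarith [Real.pi_gt_three]
  nlinarith [th_nonneg (1 : Matrix Unit Unit ℝ) 0]

theorem th_one : th (1 : Matrix d d ℝ) 0 ≤ 2 ^ Fintype.card d := by
  have s : Summable fun n : ℤ => Real.exp (-(Real.pi * (n : ℝ) ^ 2)) := by
    refine ((Equiv.funUnique Unit ℤ).summable_iff.1 ((summable_gs (d := Unit) PosDef.one 0).congr
      fun n => ?_))
    simp [gs, qf, zc, dotProduct, sq]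
  have k : ∀ (ι : Type) [Fintype ι] [DecidableEq ι], th (1 : Matrix ι ι ℝ) 0 =
      (∑' n : ℤ, Real.exp (-(Real.pi * (n : ℝ) ^ 2))) ^ Fintype.card ι := fun ι _ _ => by
    have := (Gw.hasSum_pi_prod (ι := ι) (fun _ (n : ℤ) => Real.exp (-(Real.pi * (n : ℝ) ^ 2)))
      fun _ => s).tsum_eq
    rw [prod_const, card_univ] at this
    rw [th, ← this]
    refine tsum_congr fun v => ?_
    simp [gs, qf, zc, dotProduct, sq, mul_sum, ← Real.exp_sum]
  have := th_unit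
  rw [k, Fintype.card_unit, pow_one] at this
  rw [k]
  exact pow_le_pow_left₀ (tsum_nonneg fun _ => (Real.exp_pos _).le) this _

/-- a form bounded above has a bounded cost -/
theorem ct_le_of_le (hM : M.PosDef) {T : ℝ} (hT : 1 ≤ T) (h : ∀ x, qf M x ≤ T * ∑ i, x i ^ 2) :
    ct M ≤ (2 * √T) ^ Fintype.card d := by
  refine (ct_mono hM (PosDef.one.smul (one_pos.trans_le hT)) fun x => ?_).trans
    ((ct_smul PosDef.one hT).trans ?_)
  · rw [qf_smul]
    simpa [qf, dotProduct, sq] using h x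
  · rw [mul_pow, mul_comm, ct, inv_one]
    exact mul_le_mul_of_nonneg_right th_one (by positivity)

omit [DecidableEq ρ] in
theorem qf_gram (hM : M.PosDef) (K : Matrix ρ d ℝ) {T : ℝ} (hT : ∀ a, qf M (K a) ≤ T) (x : ρ → ℝ) :
    qf (K * M * Kᵀ) x ≤ Fintype.card ρ * T * ∑ i, x i ^ 2 := by
  have e1 := qf_conj M Kᵀ x
  rw [transpose_transpose] at e1
  have e2 : Kᵀ *ᵥ x = ∑ a, x a • K a := by
    funext i; simp [mulVec, dotProduct, mul_comm]
  rcases isEmpty_or_nonempty ρ with _ | ⟨⟨a⟩⟩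
  · simp [qf, dotProduct]
  have T0 := (qf_nonneg hM _).trans (hT a)
  have a1 : nq hM (∑ a, x a • K a) ≤ (∑ a, |x a|) * √T := by
    rw [sum_mul]
    refine (le_sum_of_subadditive (nq hM) (map_zero _).le (map_add_le_add _) _ _).trans
      (sum_le_sum fun a _ => ?_)
    rw [map_smul_eq_mul, Real.norm_eq_abs, nq_apply]
    exact mul_le_mul_of_nonneg_left (Real.sqrt_le_sqrt (hT a)) (abs_nonneg _)
  have a2 := pow_le_pow_left₀ (apply_nonneg _ _) a1 2
  rw [nq_apply, Real.sq_sqrt (qf_nonneg hM _), mul_pow, Real.sq_sqrt T0] at a2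
  have a3 := sq_sum_le_card_mul_sum_sq (s := univ) (f := fun a => |x a|)
  simp only [sq_abs, card_univ] at a3
  rw [e1, e2, mul_right_comm]
  exact a2.trans (mul_le_mul_of_nonneg_right a3 T0)

/-- **slicing by `card ρ` vectors of dual norm at most `√T`** -/
theorem gk_slice' {B : Matrix d σ ℤ} {P : Matrix σ d ℤ} {C : Matrix d ρ ℤ} {K : Matrix ρ d ℤ}
    (h : Spl B P C K) (hM : M.PosDef) {T : ℝ} (h1 : 1 ≤ T) (hT : ∀ a, qf M⁻¹ (zc (K a)) ≤ T)
    (S : Set (d → ℤ)) : gk ((rm B)ᵀ * M * rm B) (B.mulVec ⁻¹' S) ≤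
      (2 * √((Fintype.card ρ + 1) * T)) ^ Fintype.card ρ * gk M S := by
  refine (gk_slice h hM S).trans (mul_le_mul_of_nonneg_right (ct_le_of_le (Spl_posDef h hM)
    (by nlinarith [Nat.cast_nonneg (α := ℝ) (Fintype.card ρ)]) fun x =>
      (qf_gram hM.inv (rm K) hT x).trans ?_) (gk_nonneg _ _))
  gcongr
  linarith

/-- **slicing by one vector** -/
theorem gk_slice_one {B : Matrix d σ ℤ} {P : Matrix σ d ℤ} {c : Matrix d Unit ℤ} {k : d → ℤ}
    (h : Spl B P c (replicateRow Unit k)) (hM : M.PosDef) {T : ℝ} (h1 : 1 ≤ T)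
    (hT : qf M⁻¹ (zc k) ≤ T) (S : Set (d → ℤ)) :
    gk ((rm B)ᵀ * M * rm B) (B.mulVec ⁻¹' S) ≤ 2 * √T * gk M S := by
  refine (gk_slice h hM S).trans (mul_le_mul_of_nonneg_right ?_ (gk_nonneg _ _))
  simpa using ct_le_of_le (Spl_posDef h hM) h1 fun x => by
    simpa using qf_gram hM.inv (rm (replicateRow Unit k)) (fun _ => hT) x

theorem ct_le_index (hM : M.PosDef) {B : Matrix d d ℤ} (hB : B.det ≠ 0) :
    ct M ≤ ct ((rm B)ᵀ * M * rm B) := by
  have u : IsUnit (rm B).det := Ne.isUnit (by rw [← Int.cast_det]; exact_mod_cast hB)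
  have := th_sub (posDef_conj hM (rm_inj hB)).inv Bᵀ
    (inj_of_rm (rm_inj (by rwa [det_transpose])))
  rwa [show rm Bᵀ = (rm B)ᵀ from rfl, transpose_transpose, Matrix.mul_inv_rev, Matrix.mul_inv_rev,
    ← Matrix.mul_assoc, mul_nonsing_inv _ u, Matrix.one_mul, Matrix.mul_assoc,
    nonsing_inv_mul _ (by rwa [det_transpose]), Matrix.mul_one, ← Matrix.mul_inv_rev,
    ← Matrix.mul_inv_rev] at this

/-- **sublattices of finite index** -/
theorem gk_index (hM : M.PosDef) {B : Matrix d d ℤ} (hB : B.det ≠ 0) (S : Set (d → ℤ)) :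
    gk ((rm B)ᵀ * M * rm B) (B.mulVec ⁻¹' S) ≤ |(B.det : ℝ)| * gk M S := by
  refine gk_sub hM (rm_inj hB) ?_ S
  have a := ct_le_index hM hB
  rw [ct_eq hM, ct_eq (posDef_conj hM (rm_inj hB)), det_mul, det_mul, det_transpose,
    ← Int.cast_det, mul_right_comm, Real.sqrt_mul (mul_self_nonneg _), Real.sqrt_mul_self_eq_abs,
    ← mul_assoc, mul_comm (th _ 0) |_|] at a
  exact le_of_mul_le_mul_right a (Real.sqrt_pos.2 hM.det_pos)

/-- **residues modulo `q`** -/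
theorem gk_res (hM : M.PosDef) {q : ℕ} (hq : 0 < q) (S : Set (d → ℤ)) :
    gk (((q : ℝ) ^ 2) • M) {n | (q : ℤ) • n ∈ S} ≤ (q : ℝ) ^ Fintype.card d * gk M S := by
  have e0 : ((q : ℤ) • (1 : Matrix d d ℤ)).det = (q : ℤ) ^ Fintype.card d := by
    rw [det_smul, det_one, mul_one]
  have := gk_index hM (B := (q : ℤ) • (1 : Matrix d d ℤ)) (by rw [e0]; positivity) S
  rw [show rm ((q : ℤ) • (1 : Matrix d d ℤ)) = (q : ℝ) • (1 : Matrix d d ℝ) by
    ext i j; simp only [map_apply, Matrix.smul_apply, one_apply]; split_ifs <;> simp, e0,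
    transpose_smul, transpose_one, Matrix.smul_mul, Matrix.one_mul, Matrix.mul_smul,
    Matrix.mul_one, smul_smul, ← sq, Int.cast_pow, Int.cast_natCast,
    abs_of_nonneg (by positivity)] at this
  simpa only [Set.preimage, smul_mulVec, one_mulVec] using this

omit [DecidableEq d] [DecidableEq σ] in
theorem ks_reindex (M : Matrix d d ℝ) (f : σ ≃ d) (θ : d → ℝ) (S : Set (d → ℤ)) :
    ks (M.submatrix f f) (θ ∘ f) {n | n ∘ f.symm ∈ S} = ks M θ S := by
  rw [ks, ks, ← (f.arrowCongr (Equiv.refl ℤ)).tsum_eq]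
  refine tsum_congr fun n => ?_
  have e1 : f.arrowCongr (Equiv.refl ℤ) n = n ∘ f.symm := rfl
  have e2 : gs (M.submatrix f f) (zc n - θ ∘ f) = gs M (zc (n ∘ f.symm) - θ) := by
    have e3 : (zc n - θ ∘ f) ∘ f.symm = zc (n ∘ f.symm) - θ := by funext i; simp [zc]
    rw [gs, gs, qf, qf, submatrix_mulVec_equiv, ← comp_equiv_symm_dotProduct, e3]
  by_cases h : n ∘ f.symm ∈ S <;> simp [e1, h, e2]

omit [DecidableEq d] [DecidableEq σ] in
/-- **renaming the coordinates** -/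
theorem gk_reindex (M : Matrix d d ℝ) (f : σ ≃ d) (S : Set (d → ℤ)) :
    gk (M.submatrix f f) {n | n ∘ f.symm ∈ S} = gk M S := by
  have a := ks_reindex M f 0 S
  have b := ks_reindex M f 0 Set.univ
  rw [gk, gk, ← ks_univ, ← ks_univ, ← a, ← b]
  rfl

/-- Fubini -/
theorem ks_jn (hM : M.PosDef) (hW : W.PosDef) (L : Matrix e d ℝ) (S : Set (d ⊕ e → ℤ)) :
    HasSum (fun u : d → ℤ => gs M (zc u - 0) * ks W (-(L *ᵥ zc u)) {v | Sum.elim u v ∈ S})
      (ks (jn M W L) 0 S) := by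
  have s := (Equiv.sumArrowEquivProdArrow d e ℤ).symm.summable_iff.2
    (summable_ks (pd_jn hM hW L) 0 S)
  rw [ks, ← (Equiv.sumArrowEquivProdArrow d e ℤ).symm.tsum_eq]
  refine s.hasSum.prod_fiberwise fun u => ?_
  refine (congrArg (HasSum · _) (funext fun v => ?_)).mp
    ((summable_ks hW (-(L *ᵥ zc u)) {v | Sum.elim u v ∈ S}).hasSum.mul_left (gs M (zc u - 0)))
  have e1 : (Equiv.sumArrowEquivProdArrow d e ℤ).symm (u, v) = Sum.elim u v := rfl
  have e2 : zc (Sum.elim u v) = Sum.elim (zc u) (zc v) := funext fun i => by cases i <;> rfl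
  by_cases h : Sum.elim u v ∈ S <;> simp [e1, h, e2, gs_jn]

theorem ct_le_jn (hM : M.PosDef) (hW : W.PosDef) (L : Matrix e d ℝ) : ct M ≤ ct (jn M W L) := by
  have hN := pd_jn hM hW L
  have := tsum_comp_le_tsum_of_inj (summable_gs hN.inv 0) (fun _ => (gs_pos _ _).le)
    (i := fun k : d → ℤ => (Sum.elim k 0 : d ⊕ e → ℤ)) fun u v h => funext fun i => congrFun h (.inl i)
  refine le_trans (le_of_eq (tsum_congr fun k => ?_)) this
  have e2 : zc (Sum.elim k (0 : e → ℤ)) = Sum.elim (zc k) 0 :=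
    funext fun i => by cases i <;> simp [zc]
  have e3 : jn M W L *ᵥ Sum.elim (M⁻¹ *ᵥ zc k) (-(L *ᵥ (M⁻¹ *ᵥ zc k))) = Sum.elim (zc k) 0 := by
    simp [jn, fromBlocks_mulVec, add_mulVec, mulVec_neg, Matrix.mul_assoc, Matrix.add_mul,
      mul_nonsing_inv _ hM.det_pos.ne'.isUnit]
  have e4 := congrArg ((jn M W L)⁻¹ *ᵥ ·) e3
  simp only [mulVec_mulVec _ (jn M W L)⁻¹, nonsing_inv_mul _ hN.det_pos.ne'.isUnit,
    one_mulVec] at e4
  simp only [Function.comp, sub_zero, gs, e2, qf, ← e4, sumElim_dotProduct_sumElim,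
    zero_dotProduct, add_zero]

/-- Poisson positivity -/
theorem th_jn_ge (hM : M.PosDef) (hW : W.PosDef) (L : Matrix e d ℝ) :
    dt W * th M 0 ≤ th (jn M W L) 0 := by
  rw [th_dual (pd_jn hM hW L), th_dual hM, dt_jn hM, ← mul_assoc, mul_comm (dt W)]
  exact mul_le_mul_of_nonneg_left (ct_le_jn hM hW L) (mul_pos (dt_pos hM) (dt_pos hW)).le

/-- **new coordinates** -/
theorem gk_jn (hM : M.PosDef) (hW : W.PosDef) (L : Matrix e d ℝ) (S : Set (d → ℤ)) :
    gk (jn M W L) {y | y ∘ .inl ∈ S} ≤ ct W * gk M S := by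
  refine gk_le_of (a := th W 0) hM (pd_jn hM hW L) ?_ ?_
  · rw [ks.eq_1 M, ← tsum_mul_left]
    refine hasSum_le (fun u => ?_) (ks_jn hM hW L _) ((summable_ks hM 0 S).mul_left _).hasSum
    by_cases h : u ∈ S
    · rw [Set.indicator_of_mem h, mul_comm]
      exact mul_le_mul_of_nonneg_right ((ks_le_th hW _ _).trans (th_le hW _)) (gs_pos _ _).le
    · simp [h, ks]
  · rw [th_dual hW, mul_comm (dt W), mul_assoc]
    exact mul_le_mul_of_nonneg_left (th_jn_ge hM hW L) (ct_pos hW).le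

theorem ks_fib {H : Type*} [AddCommGroup H] (hM : M.PosDef) (hW : W.PosDef) (L : Matrix e d ℝ)
    (π : (e → ℤ) →+ H) (c : (d → ℤ) → H) :
    ks (jn M W L) 0 {y | π (y ∘ .inr) = c (y ∘ .inl)} ≤ th M 0 * (gk W {n | π n = 0} * th W 0) := by
  rw [th, ← tsum_mul_right]
  exact hasSum_le (fun u => mul_le_mul_of_nonneg_left (ks_coset' hW _ π (c u)) (gs_pos _ _).le)
    (ks_jn hM hW L _) ((summable_gs hM 0).mul_right _).hasSum

/-- **one block decides** -/
theorem gk_fib {H : Type*} [AddCommGroup H] (hM : M.PosDef) (hW : W.PosDef) (L : Matrix e d ℝ)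
    (π : (e → ℤ) →+ H) (c : (d → ℤ) → H) :
    gk (jn M W L) {y | π (y ∘ .inr) = c (y ∘ .inl)} ≤ ct W * gk W {n | π n = 0} := by
  rw [gk, div_le_iff₀ (th_pos (pd_jn hM hW L) 0)]
  refine (ks_fib hM hW L π c).trans ?_
  have := mul_le_mul_of_nonneg_left (th_jn_ge hM hW L)
    (mul_nonneg (ct_pos hW).le (gk_nonneg W {n | π n = 0}))
  rw [th_dual hW]
  exact le_trans (le_of_eq (by rw [ct]; ring)) this

/-- the same for any positive form on a sum -/
theorem gk_marg {N : Matrix (d ⊕ e) (d ⊕ e) ℝ} (hN : N.PosDef) (S : Set (d → ℤ)) :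
    gk N {y | y ∘ .inl ∈ S} ≤ ct N.toBlocks₂₂ * gk (N⁻¹.toBlocks₁₁)⁻¹ S := by
  have := gk_jn (pd_schur hN) (pd_bb hN) (lm N) S
  rwa [jn_schur hN, ← inv_inv' (pd_schur hN), schur_inv hN] at this

theorem gk_cond {H : Type*} [AddCommGroup H] {N : Matrix (d ⊕ e) (d ⊕ e) ℝ} (hN : N.PosDef)
    (π : (e → ℤ) →+ H) (c : (d → ℤ) → H) :
    gk N {y | π (y ∘ .inr) = c (y ∘ .inl)} ≤ ct N.toBlocks₂₂ * gk N.toBlocks₂₂ {n | π n = 0} := by
  have := gk_fib (pd_schur hN) (pd_bb hN) (lm N) π c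
  rwa [jn_schur hN] at this

theorem ex_eq (M : Matrix d d ℝ) (W : Matrix e e ℝ) (Γ : Matrix e d ℝ) :
    ex M W Γ = jn M W (-Γ) := (jn_eq _ _ _).symm

theorem gk_ex (hM : M.PosDef) (hW : W.PosDef) (Γ : Matrix e d ℝ) (S : Set (d → ℤ)) :
    gk (ex M W Γ) {y | y ∘ .inl ∈ S} ≤ ct W * gk M S := by
  rw [ex_eq]; exact gk_jn hM hW _ S

/-- **the start**: the lattice `ℤ` at width `N` -/
theorem gk_start [Unique d] {N : ℝ} (hN : 0 < N) {p : d → ℤ} (hp : p ≠ 0) :
    N * gk ((N ^ 2)⁻¹ • (1 : Matrix d d ℝ)) {n | p ⬝ᵥ n = 0} ≤ 1 := by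
  have hM : ((N ^ 2)⁻¹ • (1 : Matrix d d ℝ)).PosDef := PosDef.one.smul (by positivity)
  have p0 : p default ≠ 0 := fun z => hp (funext fun i => by rwa [Unique.eq_default i])
  have e1 : {n : d → ℤ | p ⬝ᵥ n = 0} = {0} := by
    ext n
    simp only [dotProduct, Fintype.sum_unique, Set.mem_ofPred_eq, mul_eq_zero, p0, false_or,
      Set.mem_singleton_iff]
    exact ⟨fun h => funext fun i => by rwa [Unique.eq_default i], fun h => by rw [h]; rfl⟩
  have e2 : ks ((N ^ 2)⁻¹ • (1 : Matrix d d ℝ)) 0 {0} = 1 := by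
    rw [ks, tsum_eq_single 0 fun n hn => Set.indicator_of_notMem (by simpa using hn) _]
    simp [zc_zero, gs_zero]
  have e3 := dt_le_th hM
  rw [dt_smul (by positivity), Fintype.card_unique, pow_one, Real.sqrt_inv, inv_inv,
    Real.sqrt_sq hN.le, dt, det_one, Real.sqrt_one, inv_one, mul_one] at e3
  rw [e1, gk, e2, mul_one_div, div_le_one (th_pos hM 0)]
  exact e3

theorem th_start [Unique d] {N : ℝ} (hN : 1 ≤ N) :
    th ((N ^ 2)⁻¹ • (1 : Matrix d d ℝ)) 0 ≤ 2 * N := by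
  have := th_scale (M := (1 : Matrix d d ℝ)) PosDef.one (t := (N ^ 2)⁻¹) (by positivity)
    (inv_le_one_of_one_le₀ (one_le_pow₀ hN)) 0
  rw [Fintype.card_unique, pow_one, Real.sqrt_inv, inv_inv, Real.sqrt_sq (by positivity)] at this
  have h := th_one (d := d)
  rw [Fintype.card_unique, pow_one] at h
  nlinarith

end Crest.Agent.N49.Sp
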